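import Vale.Agent.Lib.P002.G1Defs

/-!
# P002-G1-E (pool job 361): the commutator of the chart pair
-/

namespace Vale.Agent.Lib.P002.H43

open Matrix
open Vale.Agent.Lib.P002

/-- The commutator identity for an arbitrary involution `w` in place of the reversal matrix. -/
theorem chart_comm_aux {S : Type*} [CommRing S] {n : ℕ}
    (w U Lo l b Ui Loi li : Matrix (Fin n) (Fin n) S) (hw : w * w = 1)
    (hU : U * Ui = 1) (hLo : Lo * Loi = 1) (hl : l * li = 1) (hq : U * Lo = l * b)
    (hdA : (w * Loi * w * li).det = 1) (hdB : (U * Lo * w).det = 1) :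
    (w * Loi * w * li) * (U * Lo * w) * (w * Loi * w * li).adjugate * (U * Lo * w).adjugate =
      w * Loi * w * b * (w * l * w) * Ui := by
  have hUi : Ui * U = 1 := mul_eq_one_comm.mp hU
  have hli : li * l = 1 := mul_eq_one_comm.mp hl
  have hw' : ∀ X : Matrix (Fin n) (Fin n) S, w * (w * X) = X := fun X => by
    rw [← Matrix.mul_assoc, hw, Matrix.one_mul]
  have hLo' : ∀ X : Matrix (Fin n) (Fin n) S, Lo * (Loi * X) = X := fun X => by
    rw [← Matrix.mul_assoc, hLo, Matrix.one_mul]
  have hli' : ∀ X : Matrix (Fin n) (Fin n) S, li * (l * X) = X := fun X => by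
    rw [← Matrix.mul_assoc, hli, Matrix.one_mul]
  have hUi' : ∀ X : Matrix (Fin n) (Fin n) S, Ui * (U * X) = X := fun X => by
    rw [← Matrix.mul_assoc, hUi, Matrix.one_mul]
  have hq' : ∀ X : Matrix (Fin n) (Fin n) S, U * (Lo * X) = l * (b * X) := fun X => by
    rw [← Matrix.mul_assoc, hq, Matrix.mul_assoc]
  have h1 : (U * Lo * w) * (w * Loi * w * li) = U * w * li := by
    simp only [Matrix.mul_assoc]
    rw [hw', hLo']
  have h2 : (w * Loi * w * li) * (U * Lo * w) = w * Loi * w * b * w := by
    simp only [Matrix.mul_assoc]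
    rw [hq', hli']
  have h3 : (w * Loi * w * b * (w * l * w) * Ui) * ((U * Lo * w) * (w * Loi * w * li))
      = (w * Loi * w * li) * (U * Lo * w) := by
    rw [h1, h2]
    simp only [Matrix.mul_assoc]
    rw [hUi', hw', hl, Matrix.mul_one]
  have hdet : ((U * Lo * w) * (w * Loi * w * li)).det = 1 := by
    rw [Matrix.det_mul, hdA, hdB, one_mul]
  have hadj : ((U * Lo * w) * (w * Loi * w * li)).adjugate
      = (w * Loi * w * li).adjugate * (U * Lo * w).adjugate :=
    Matrix.adjugate_mul_distrib _ _
  calc (w * Loi * w * li) * (U * Lo * w) * (w * Loi * w * li).adjugate * (U * Lo * w).adjugate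
      = (w * Loi * w * li) * (U * Lo * w) * ((U * Lo * w) * (w * Loi * w * li)).adjugate := by
        rw [hadj]
        exact Matrix.mul_assoc _ _ _
    _ = (w * Loi * w * b * (w * l * w) * Ui) * ((U * Lo * w) * (w * Loi * w * li))
          * ((U * Lo * w) * (w * Loi * w * li)).adjugate := by
        rw [h3]
    _ = (w * Loi * w * b * (w * l * w) * Ui) * (((U * Lo * w) * (w * Loi * w * li))
          * ((U * Lo * w) * (w * Loi * w * li)).adjugate) := by
        rw [Matrix.mul_assoc]
    _ = w * Loi * w * b * (w * l * w) * Ui := by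
        rw [Matrix.mul_adjugate, hdet, one_smul, Matrix.mul_one]

theorem g1_chart_comm {S : Type*} [CommRing S] {n : ℕ}
    (U Lo l b Ui Loi li : Matrix (Fin n) (Fin n) S)
    (hU : U * Ui = 1) (hLo : Lo * Loi = 1) (hl : l * li = 1) (hq : U * Lo = l * b)
    (hdA : (revM S n * Loi * revM S n * li).det = 1) (hdB : (U * Lo * revM S n).det = 1) :
    cmm (revM S n * Loi * revM S n * li) (U * Lo * revM S n) =
      revM S n * Loi * revM S n * b * (revM S n * l * revM S n) * Ui :=
  chart_comm_aux (revM S n) U Lo l b Ui Loi li (revM_mul_revM n) hU hLo hl hq hdA hdB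

end Vale.Agent.Lib.P002.H43
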